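/-
R166 Dyn/Main.  ASSEMBLY (architect): existence of the infinite-volume dynamics of Def_0296 (`DynamicsConverges`), and convergence of the
 torus-with-field dynamics to the same limit `dynamics d l t`.
No sorry in this file (it only combines leaves).
-/
import Claimed.Agent.R166.Abs.Conv
import Claimed.Agent.R166.Abs.AdConv
import Claimed.Agent.R166.Loc.Dense
import Claimed.Agent.R166.Ham.Analytic
import Claimed.Agent.R166.Ham.AdEq

set_option autoImplicit false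
set_option linter.unusedSectionVars false

namespace Claimed.Agent.R166

open Claims.C0296.Heisenberg
open Filter Topology
open scoped Classical

noncomputable section

variable {d ℓ : ℕ}

theorem finiteDynamics_eq_conjExp (Λ : Finset (Site d)) (t : ℝ) (A : QuasiLocal d ℓ) :
    finiteDynamics d ℓ Λ t A = conjExp (hamiltonian d ℓ Λ) (t : ℂ) A := rfl

variable (d ℓ)

/-- local generator on box s. -/
def genG (s : ℕ) : QuasiLocal d ℓ := hamiltonian d ℓ (box d (s + 1))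

/-- local field on box s. -/
def genN (s : ℕ) : QuasiLocal d ℓ := magn d ℓ (box d s)

variable {d ℓ}

theorem ad_mem_Loc {X : Finset (Site d)} {K B : QuasiLocal d ℓ} (hK : K ∈ Loc d ℓ X)
    (hB : B ∈ Loc d ℓ X) : ad K B ∈ Loc d ℓ X :=
  sub_mem (mul_mem hK hB) (mul_mem hB hK)

theorem genG_maps (s : ℕ) (X : QuasiLocal d ℓ) (hX : X ∈ locBox d ℓ s) :
    ad (genG d ℓ s) X ∈ locBox d ℓ (s + 1) :=
  ad_mem_Loc (hamiltonian_mem_Loc _) (Loc_mono (box_mono (Nat.le_succ s)) hX)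

theorem genN_maps (s : ℕ) (X : QuasiLocal d ℓ) (hX : X ∈ locBox d ℓ s) :
    ad (genN d ℓ s) X ∈ locBox d ℓ (s + 1) :=
  Loc_mono (box_mono (Nat.le_succ s)) (ad_mem_Loc (magn_mem_Loc _) hX)

theorem tendsto_adPow_box {s : ℕ} {B : QuasiLocal d ℓ} (hB : B ∈ Loc d ℓ (box d s)) (k : ℕ) :
    Tendsto (fun n : ℕ => adPow (hamiltonian d ℓ (box d n)) k B) atTop
      (𝓝 (locD (genG d ℓ) s k B)) := by
  refine tendsto_adPow_of_local (fun n : ℕ => hamiltonian d ℓ (box d n)) (fun _ => 0)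
    tendsto_const_nhds (locBox d ℓ) (genG d ℓ) (genN d ℓ) genG_maps genN_maps ?_ s B hB k
  intro s'
  filter_upwards [eventually_ge_atTop (s' + 1)] with n hn X hX
  rw [zero_smul, sub_zero]
  exact ad_hamiltonian_box_eq hn hX

theorem tendsto_adPow_torus (nn : ℕ → ℕ) (hn : ∀ j, j ≤ nn j) (hh : ℕ → ℝ)
    (hh0 : Tendsto hh atTop (𝓝 0)) {s : ℕ} {B : QuasiLocal d ℓ} (hB : B ∈ Loc d ℓ (box d s))
    (k : ℕ) :
    Tendsto (fun j : ℕ => adPow (torusK d ℓ (nn j) (hh j)) k B) atTop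
      (𝓝 (locD (genG d ℓ) s k B)) := by
  have hc : Tendsto (fun j => ((hh j : ℝ) : ℂ)) atTop (𝓝 0) := by
    have h1 := (Complex.continuous_ofReal.tendsto 0).comp hh0
    rw [Complex.ofReal_zero] at h1
    exact h1
  refine tendsto_adPow_of_local (fun j : ℕ => torusK d ℓ (nn j) (hh j)) (fun j => ((hh j : ℝ) : ℂ))
    hc (locBox d ℓ) (genG d ℓ) (genN d ℓ) genG_maps genN_maps ?_ s B hB k
  intro s'
  filter_upwards [eventually_ge_atTop (s' + 1)] with j hj X hX
  exact ad_torusK_eq (le_trans hj (hn j)) (hh j) hX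

theorem hbd_box (B : QuasiLocal d ℓ) (hB : B ∈ (locAll d ℓ : Set (QuasiLocal d ℓ))) :
    ∃ C : ℝ, ∀ (n k : ℕ), ‖adPow (hamiltonian d ℓ (box d n)) k B‖ ≤
      C * k.factorial * ((rad d ℓ)⁻¹) ^ k := by
  obtain ⟨s, hs⟩ := hB
  exact ⟨_, fun n k => norm_adPow_hamiltonian_le (box d n) (box d s) hs k⟩

theorem hbd_torus (nn : ℕ → ℕ) (hh : ℕ → ℝ) (hh1 : ∀ j, |hh j| ≤ 1) (B : QuasiLocal d ℓ)
    (hB : B ∈ (locAll d ℓ : Set (QuasiLocal d ℓ))) :
    ∃ C : ℝ, ∀ (j k : ℕ), ‖adPow (torusK d ℓ (nn j) (hh j)) k B‖ ≤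
      C * k.factorial * ((rad d ℓ)⁻¹) ^ k := by
  obtain ⟨s, hs⟩ := hB
  exact ⟨_, fun j k => norm_adPow_torusK_le (nn j) (hh1 j) (box d s) hs k⟩

/-- first half of the frozen statement, unconditional. -/
theorem dynamicsConverges (d ℓ : ℕ) : DynamicsConverges d ℓ := by
  intro t A
  obtain ⟨L, hL⟩ := exists_tendsto_conjExp (fun n : ℕ => hamiltonian d ℓ (box d n))
    (fun n => hamiltonian_selfAdjoint _) (locAll d ℓ : Set (QuasiLocal d ℓ)) dense_locAll
    (rad_pos d ℓ) hbd_box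
    (fun B hB k => by
      obtain ⟨s, hs⟩ := hB
      exact ⟨_, tendsto_adPow_box hs k⟩) t A
  have hL' : Tendsto (fun n : ℕ => finiteDynamics d ℓ (box d n) t A) atTop (𝓝 L) := hL
  have : dynamics d ℓ t A = L := hL'.limUnder_eq
  rw [this]
  exact hL'

/-- the torus dynamics with vanishing field converges to the same limit. -/
theorem tendsto_conjExp_torus (nn : ℕ → ℕ) (hn : ∀ j, j ≤ nn j) (hh : ℕ → ℝ)
    (hh1 : ∀ j, |hh j| ≤ 1) (hh0 : Tendsto hh atTop (𝓝 0)) (t : ℝ) (B : QuasiLocal d ℓ) :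
    Tendsto (fun j : ℕ => conjExp (torusK d ℓ (nn j) (hh j)) (t : ℂ) B) atTop
      (𝓝 (dynamics d ℓ t B)) := by
  obtain ⟨L, hL, hL'⟩ := exists_tendsto_conjExp_pair (fun n : ℕ => hamiltonian d ℓ (box d n))
    (fun j : ℕ => torusK d ℓ (nn j) (hh j))
    (fun n => hamiltonian_selfAdjoint _) (fun j => torusK_selfAdjoint _ _)
    (locAll d ℓ : Set (QuasiLocal d ℓ)) dense_locAll (rad_pos d ℓ) hbd_box
    (hbd_torus nn hh hh1)
    (fun B hB k => by
      obtain ⟨s, hs⟩ := hB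
      exact ⟨_, tendsto_adPow_box hs k, tendsto_adPow_torus nn hn hh hh0 hs k⟩) t B
  have hL2 : Tendsto (fun n : ℕ => finiteDynamics d ℓ (box d n) t B) atTop (𝓝 L) := hL
  have : dynamics d ℓ t B = L := hL2.limUnder_eq
  rw [this]
  exact hL'

end

end Claimed.Agent.R166
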